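import Vale.Agent.Results.P252.ACaccioppoli3D
import Vale.Agent.Results.P252.AInfiniteVolume
import Vale.Agent.Results.P252.BoundedDet3D
import Vale.Agent.Results.P252.GapLiouville3D
import Vale.Agent.Results.P252.GrowthLiouville3D
import Vale.Agent.Results.P252.LiouvilleCriterion
import Vale.Agent.Results.P252.MassLiouville3D

/-!
# Conjunction of the results on the affine Bernstein problem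
-/

namespace Vale.Agent.Results.P252.A0Conj

section
open Vale.Agent.Lib.P252 Vale.Agent.Lib.P252.Caccio MeasureTheory
open scoped ContDiff

/-- The statement of the part `ACaccioppoli3D`. -/
def PartACaccioppoli3D : Prop :=
  (∀ (p : ℕ) (β : ℝ), 3 ≤ p → |β - 1/5| ≤ (3/20) * ((p : ℝ) - 1) → Adm p β) ∧
    (∀ p : ℕ, 3 ≤ p → p ≤ 1000 → Adm p (((p : ℝ) + 1) / 5)) ∧
    (∀ (p : ℕ) (β : ℝ), Adm p β → ∃ C : ℝ, 0 < C ∧ ∀ (Ω : Set (Fin 3 → ℝ)) (u ψ : (Fin 3 → ℝ) → ℝ),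
      IsOpen Ω → IsAffineMaximal Ω u → ContDiff ℝ 1 ψ → HasCompactSupport ψ → tsupport ψ ⊆ Ω →
      ∫ x in Ω, (hess u x).det ^ β *
          (ψ x ^ (2 * p) * gradSq u (fun y => Real.log (hess u y).det) x ^ p) ≤
        C * ∫ x in Ω, (hess u x).det ^ β * gradSq u ψ x ^ p) ∧
    (∀ p : ℕ, 3 ≤ p → p ≤ 1000 → ∃ C : ℝ, 0 < C ∧ ∀ (Ω : Set (Fin 3 → ℝ)) (u ψ : (Fin 3 → ℝ) → ℝ),
      IsOpen Ω → IsAffineMaximal Ω u → ContDiff ℝ 1 ψ → HasCompactSupport ψ → tsupport ψ ⊆ Ω →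
      ∫ x in Ω, (hess u x).det ^ (1/5 : ℝ) * (ψ x ^ (2 * p) *
          ((hess u x).det ^ (1/5 : ℝ) * gradSq u (fun y => Real.log (hess u y).det) x) ^ p) ≤
        C * ∫ x in Ω, (hess u x).det ^ (1/5 : ℝ) *
          ((hess u x).det ^ (1/5 : ℝ) * gradSq u ψ x) ^ p) ∧
    (∀ (Ω : Set (Fin 3 → ℝ)) (u : (Fin 3 → ℝ) → ℝ), IsOpen Ω → IsPreconnected Ω →
      IsAffineMaximal Ω u →
      (∀ (p : ℕ) (β : ℝ), Adm p β →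
        (∀ K : Set (Fin 3 → ℝ), IsCompact K → K ⊆ Ω → ∀ ε : ℝ, 0 < ε →
          ∃ ψ : (Fin 3 → ℝ) → ℝ, ContDiff ℝ 1 ψ ∧ HasCompactSupport ψ ∧ tsupport ψ ⊆ Ω ∧
            (∀ x ∈ K, ψ x = 1) ∧ ∫ x in Ω, (hess u x).det ^ β * gradSq u ψ x ^ p ≤ ε) →
        ∀ x ∈ Ω, ∀ z ∈ Ω, (hess u x).det = (hess u z).det) ∧
      (∀ (p : ℕ) (β : ℝ) (ρ : (Fin 3 → ℝ) → ℝ), Adm p β → ContDiffOn ℝ ∞ ρ Ω →
        (∀ s : ℝ, IsCompact {x | x ∈ Ω ∧ ρ x ≤ s}) →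
        (∀ ε : ℝ, 0 < ε → ∀ S₁ : ℝ, ∃ S : ℝ, S₁ ≤ S ∧
          ∫ x in {x | x ∈ Ω ∧ ρ x < S}, (hess u x).det ^ β * gradSq u ρ x ^ p ≤ ε * S ^ (2 * p)) →
        ∀ x ∈ Ω, ∀ z ∈ Ω, (hess u x).det = (hess u z).det) ∧
      (∀ (τ σ C : ℝ) (m : ℕ) (ρ : (Fin 3 → ℝ) → ℝ), |τ| < 3/20 → ContDiffOn ℝ ∞ ρ Ω →
        (∀ s : ℝ, IsCompact {x | x ∈ Ω ∧ ρ x ≤ s}) →
        (∀ x ∈ Ω, (hess u x).det ^ τ * gradSq u ρ x ≤ 1) →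
        (∀ S : ℝ, 1 ≤ S → ∫ x in {x | x ∈ Ω ∧ ρ x < S}, (hess u x).det ^ σ ≤ C * S ^ m) →
        ∀ x ∈ Ω, ∀ z ∈ Ω, (hess u x).det = (hess u z).det) ∧
      (∀ ρ : (Fin 3 → ℝ) → ℝ, ContDiffOn ℝ ∞ ρ Ω →
        (∀ s : ℝ, IsCompact {x | x ∈ Ω ∧ ρ x ≤ s}) →
        (∀ x ∈ Ω, (hess u x).det ^ (1/5 : ℝ) * gradSq u ρ x ≤ 1) →
        (∀ ε : ℝ, 0 < ε → ∀ S₁ : ℝ, ∃ S : ℝ, S₁ ≤ S ∧
          ∫ x in {x | x ∈ Ω ∧ ρ x < S}, (hess u x).det ^ (1/5 : ℝ) ≤ ε * S ^ 2000) →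
        ∀ x ∈ Ω, ∀ z ∈ Ω, (hess u x).det = (hess u z).det)) ∧
    (∀ (Ω : Set (Fin 3 → ℝ)) (u : (Fin 3 → ℝ) → ℝ) (x₀ : Fin 3 → ℝ), IsOpen Ω → Convex ℝ Ω → x₀ ∈ Ω →
      IsAffineMaximal Ω u →
      (IsEuclideanComplete Ω u → ∀ s : ℝ, IsCompact {x | x ∈ Ω ∧ uBar u x₀ x ≤ s}) ∧
      ((∀ s : ℝ, IsCompact {x | x ∈ Ω ∧ uBar u x₀ x ≤ s}) →
        (∀ (p : ℕ) (β : ℝ), Adm p β →
          (∀ ε : ℝ, 0 < ε → ∀ S₁ : ℝ, ∃ S : ℝ, S₁ ≤ S ∧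
            ∫ x in {x | x ∈ Ω ∧ uBar u x₀ x < S},
              (hess u x).det ^ β * gradSq u (uBar u x₀) x ^ p ≤ ε * S ^ (2 * p)) →
          ∀ x ∈ Ω, ∀ z ∈ Ω, (hess u x).det = (hess u z).det) ∧
        (∀ C a : ℝ, a < 2 → (∀ x ∈ Ω, gradSq u (uBar u x₀) x ≤ C * (1 + uBar u x₀ x) ^ a) →
          ∀ x ∈ Ω, ∀ z ∈ Ω, (hess u x).det = (hess u z).det)) ∧
      ((∀ R : ℝ, IsCompact {x | x ∈ Ω ∧ ‖(fun i => pd i (uBar u x₀) x : Fin 3 → ℝ)‖ ≤ R}) →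
        ∀ C b : ℝ, b < 2 →
        (∀ x ∈ Ω, Matrix.trace (hess u x) ≤
          C * (1 + ‖(fun i => pd i (uBar u x₀) x : Fin 3 → ℝ)‖) ^ b) →
        ∀ x ∈ Ω, ∀ z ∈ Ω, (hess u x).det = (hess u z).det)) ∧
    (∀ (u : (Fin 3 → ℝ) → ℝ) (x₀ : Fin 3 → ℝ) (C a : ℝ), IsAffineMaximal Set.univ u → a < 2 →
      (∀ x, Matrix.trace (hess u x)⁻¹ ≤ C * (1 + ‖x - x₀‖) ^ a) →
      ∀ x z, (hess u x).det = (hess u z).det)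

end

section
open Vale.Agent.Lib.P252 MeasureTheory

/-- The statement of the part `AInfiniteVolume`. -/
def PartAInfiniteVolume : Prop :=
  ∀ {n : ℕ} (hn : 0 < n)
    {Ω : Set (Fin n → ℝ)} {u : (Fin n → ℝ) → ℝ} (hΩ : IsOpen Ω) (hc : Convex ℝ Ω)
    (hne : Ω.Nonempty) (hs : IsAffineMaximal Ω u) (hE : IsEuclideanComplete Ω u),
    ¬ Bornology.IsBounded Ω ∧ volume Ω = ⊤ ∧
      ∫⁻ x in Ω, ENNReal.ofReal (hess u x).det = ⊤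

end

section
open Vale.Agent.Lib.P252 MeasureTheory

/-- The statement of the part `BoundedDet3D`. -/
def PartBoundedDet3D : Prop :=
  ∀ {Ω : Set (Fin 3 → ℝ)}
    {u : (Fin 3 → ℝ) → ℝ} {x₀ : Fin 3 → ℝ} (hΩ : IsOpen Ω) (hc : Convex ℝ Ω) (hx₀ : x₀ ∈ Ω)
    (hs : IsAffineMaximal Ω u),
    (IsEuclideanComplete Ω u → ∀ s : ℝ, IsCompact {x | x ∈ Ω ∧ uBar u x₀ x ≤ s}) ∧
    (Ω = Set.univ → IsEuclideanComplete Ω u) ∧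
    ((∀ s : ℝ, IsCompact {x | x ∈ Ω ∧ uBar u x₀ x ≤ s}) →
      ((∀ ε : ℝ, 0 < ε → ∀ S₁ : ℝ, ∃ S : ℝ, S₁ ≤ S ∧
        ∫ x in {x | x ∈ Ω ∧ uBar u x₀ x < S}, (hess u x).det ^ (3/2 : ℝ) ≤ ε * S ^ 4) →
        ∀ x ∈ Ω, ∀ y ∈ Ω, (hess u x).det = (hess u y).det) ∧
      (∀ C k : ℝ, k < 2 / 3 → (∀ x ∈ Ω, (hess u x).det ≤ C * (1 + uBar u x₀ x) ^ k) →
        ∀ x ∈ Ω, ∀ y ∈ Ω, (hess u x).det = (hess u y).det) ∧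
      (∀ Λ : ℝ, (∀ x ∈ Ω, (hess u x).det ≤ Λ) →
        ∀ x ∈ Ω, ∀ y ∈ Ω, (hess u x).det = (hess u y).det)) ∧
    (Ω = Set.univ → ∀ C k : ℝ, k < 2 / 3 → (∀ x, (hess u x).det ≤ C * (1 + ‖x - x₀‖) ^ k) →
      ∀ x y, (hess u x).det = (hess u y).det)

end

section
open Vale.Agent.Lib.P252 MeasureTheory

/-- The statement of the part `GapLiouville3D`. -/
def PartGapLiouville3D : Prop :=
  ∀ {Ω : Set (Fin 3 → ℝ)}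
    {u : (Fin 3 → ℝ) → ℝ} {x₀ : Fin 3 → ℝ} (hΩ : IsOpen Ω) (hc : Convex ℝ Ω) (hx₀ : x₀ ∈ Ω)
    (hs : IsAffineMaximal Ω u),
    (IsEuclideanComplete Ω u → ∀ s : ℝ, IsCompact {x | x ∈ Ω ∧ uBar u x₀ x ≤ s}) ∧
    ((∀ s : ℝ, IsCompact {x | x ∈ Ω ∧ uBar u x₀ x ≤ s}) →
      ((∀ ε : ℝ, 0 < ε → ∀ S₁ : ℝ, ∃ S : ℝ, S₁ ≤ S ∧
        ∫ x in {x | x ∈ Ω ∧ uBar u x₀ x < S}, (hess u x).det ≤ ε * S ^ ((31 : ℝ) / 10)) →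
        ∀ x ∈ Ω, ∀ y ∈ Ω, (hess u x).det = (hess u y).det) ∧
      ((∀ ε : ℝ, 0 < ε → ∀ S₁ : ℝ, ∃ S : ℝ, S₁ ≤ S ∧
        ∀ x ∈ Ω, uBar u x₀ x < S → ∀ i, |pd i (uBar u x₀) x| ≤ ε * S ^ ((31 : ℝ) / 30)) →
        ∀ x ∈ Ω, ∀ y ∈ Ω, (hess u x).det = (hess u y).det) ∧
      ((∀ ε : ℝ, 0 < ε → ∀ S₁ : ℝ, ∃ S ρ : ℝ, S₁ ≤ S ∧ 0 < ρ ∧ S ≤ ε * (ρ * S ^ ((31 : ℝ) / 30)) ∧
        ∀ x ∈ Ω, uBar u x₀ x < S → ∀ z, ‖z - x‖ ≤ ρ → z ∈ Ω ∧ uBar u x₀ z ≤ 2 * S) →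
        ∀ x ∈ Ω, ∀ y ∈ Ω, (hess u x).det = (hess u y).det)) ∧
    (IsEuclideanComplete Ω u → ∀ C S₁ : ℝ,
      (∀ x ∈ Ω, ∀ y ∈ Ω, S₁ ≤ uBar u x₀ x → uBar u x₀ y = uBar u x₀ x →
        ‖(fun i => pd i (uBar u x₀) y : Fin 3 → ℝ)‖ ≤ C * ‖(fun i => pd i (uBar u x₀) x : Fin 3 → ℝ)‖) →
      ∀ x ∈ Ω, ∀ y ∈ Ω, (hess u x).det = (hess u y).det) ∧
    (Ω = Set.univ →
      ((∀ ε : ℝ, 0 < ε → ∀ S₁ : ℝ, ∃ R : ℝ, 0 < R ∧ ∃ m : ℝ, S₁ ≤ m ∧ ∃ M : ℝ,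
        (∀ x, ‖x - x₀‖ = R → m ≤ uBar u x₀ x) ∧ (∀ x, ‖x - x₀‖ ≤ 2 * R → uBar u x₀ x ≤ M) ∧
        M ≤ ε * (R * m ^ ((31 : ℝ) / 30))) →
        ∀ x y, (hess u x).det = (hess u y).det) ∧
      (∀ a b c C : ℝ, 0 < a → 0 < b → 0 < c → b < 1 + 31 / 30 * a →
        (∀ x, c * ‖x - x₀‖ ^ a - C ≤ uBar u x₀ x) → (∀ x, uBar u x₀ x ≤ C * ‖x - x₀‖ ^ b + C) →
        ∀ x y, (hess u x).det = (hess u y).det))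

end

section
open Vale.Agent.Lib.P252

/-- The statement of the part `GrowthLiouville3D`. -/
def PartGrowthLiouville3D : Prop :=
  ∀ {u : (Fin 3 → ℝ) → ℝ} {x₀ : Fin 3 → ℝ}
    (hs : IsAffineMaximal Set.univ u),
    ((∀ ε : ℝ, 0 < ε → ∀ S₁ : ℝ, ∃ R : ℝ, 0 < R ∧ ∃ m : ℝ, S₁ ≤ m ∧ ∃ M : ℝ,
        (∀ x, ‖x - x₀‖ = R → m ≤ uBar u x₀ x) ∧ (∀ x, ‖x - x₀‖ ≤ 2 * R → uBar u x₀ x ≤ M) ∧
        M ^ 9 ≤ ε * R ^ 3 * m ^ 10) →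
      ∀ x y, (hess u x).det = (hess u y).det) ∧
    (∀ a b c C : ℝ, 0 < a → 0 < b → 0 < c → 9 * b < 10 * a + 3 →
      (∀ x, c * ‖x - x₀‖ ^ a - C ≤ uBar u x₀ x) → (∀ x, uBar u x₀ x ≤ C * ‖x - x₀‖ ^ b + C) →
      ∀ x y, (hess u x).det = (hess u y).det)

end

section
open Vale.Agent.Lib.P252 MeasureTheory

/-- The statement of the part `LiouvilleCriterion`. -/
def PartLiouvilleCriterion : Prop :=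
  ∀ {n : ℕ}
    {Ω : Set (Fin n → ℝ)} {u : (Fin n → ℝ) → ℝ} {x₀ : Fin n → ℝ} (hΩ : IsOpen Ω) (hc : Convex ℝ Ω)
    (hx₀ : x₀ ∈ Ω) (hs : IsAffineMaximal Ω u),
    (Ω = Set.univ → IsEuclideanComplete Ω u) ∧
    (IsEuclideanComplete Ω u → ∀ β : ℝ, 1 / ((n : ℝ) + 2) < β → β ≤ 1 →
      ¬ IntegrableOn
        (fun s : ℝ => (∫ x in {x | x ∈ Ω ∧ uBar u x₀ x < s}, (hess u x).det ^ β)⁻¹) (Set.Ioi 1) →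
      ∀ x ∈ Ω, ∀ y ∈ Ω, (hess u x).det = (hess u y).det) ∧
    ((∀ s : ℝ, IsCompact {x | x ∈ Ω ∧ vDual u x₀ x ≤ s}) → ∀ β : ℝ, 0 ≤ β → β < 1 / ((n : ℝ) + 2) →
      ¬ IntegrableOn
        (fun s : ℝ => (∫ x in {x | x ∈ Ω ∧ vDual u x₀ x < s}, (hess u x).det ^ β)⁻¹) (Set.Ioi 1) →
      ∀ x ∈ Ω, ∀ y ∈ Ω, (hess u x).det = (hess u y).det)

end

section
open Vale.Agent.Lib.P252 MeasureTheory

/-- The statement of the part `MassLiouville3D`. -/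
def PartMassLiouville3D : Prop :=
  ∀ {Ω : Set (Fin 3 → ℝ)}
    {u : (Fin 3 → ℝ) → ℝ} {x₀ : Fin 3 → ℝ} (hΩ : IsOpen Ω) (hc : Convex ℝ Ω) (hx₀ : x₀ ∈ Ω)
    (hs : IsAffineMaximal Ω u),
    (IsEuclideanComplete Ω u → ∀ s : ℝ, IsCompact {x | x ∈ Ω ∧ uBar u x₀ x ≤ s}) ∧
    ((∀ s : ℝ, IsCompact {x | x ∈ Ω ∧ uBar u x₀ x ≤ s}) →
      (∀ ε : ℝ, 0 < ε → ∀ S₁ : ℝ, ∃ S : ℝ, S₁ ≤ S ∧
        ∫ x in {x | x ∈ Ω ∧ uBar u x₀ x < S}, (hess u x).det ^ (3/5 : ℝ) ≤ ε * S ^ 2) →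
      ∀ x ∈ Ω, ∀ y ∈ Ω, (hess u x).det = (hess u y).det)

end

/-- All results together: Caccioppoli inequalities and Liouville theorems in dimension three, and infinite volume in every dimension. -/
theorem result :
    PartACaccioppoli3D ∧
      PartAInfiniteVolume ∧
      PartBoundedDet3D ∧
      PartGapLiouville3D ∧
      PartGrowthLiouville3D ∧
      PartLiouvilleCriterion ∧
      PartMassLiouville3D :=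
  ⟨@Vale.Agent.Results.P252.ACaccioppoli3D.result,
    @Vale.Agent.Results.P252.AInfiniteVolume.result,
    @Vale.Agent.Results.P252.BoundedDet3D.result,
    @Vale.Agent.Results.P252.GapLiouville3D.result,
    @Vale.Agent.Results.P252.GrowthLiouville3D.result,
    @Vale.Agent.Results.P252.LiouvilleCriterion.result,
    @Vale.Agent.Results.P252.MassLiouville3D.result⟩

end Vale.Agent.Results.P252.A0Conj
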